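import Mathlib

namespace Vale.Agent.Results.P325.AlphabetLift

open Finset
open scoped Classical

/-- A Unique Games instance over the alphabet `Fin k` with vertex set `V`: a family, indexed by the
finite type `E`, of constraints `(src e, tgt e, perm e)` (repetitions allowed, loops allowed). -/
structure UG (k : ℕ) (V E : Type) where
  src : E → V
  tgt : E → V
  perm : E → Equiv.Perm (Fin k)

variable {k : ℕ} {V E : Type}

/-- The number of constraints `(u, v, π)` with `a v = π (a u)`. -/
def UG.numSat [Fintype E] (G : UG k V E) (a : V → Fin k) : ℕ :=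
  (univ.filter (fun e => a (G.tgt e) = G.perm e (a (G.src e)))).card

/-- The largest number of constraints satisfied by a single labeling. -/
noncomputable def UG.maxSat [Fintype V] [Fintype E] (G : UG k V E) : ℕ :=
  univ.sup (fun a : V → Fin k => G.numSat a)

/-- The value: the largest fraction of constraints satisfied by a single labeling. -/
noncomputable def UG.val [Fintype V] [Fintype E] (G : UG k V E) : ℝ :=
  (G.maxSat : ℝ) / (Fintype.card E : ℝ)

/-- The permutation of `Fin (k + (s + 1))` acting as `π` on the first `k` labels and as the cyclic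
shift `c ↦ c + j` (modulo `s + 1`) on the last `s + 1` labels. -/
def ext (s : ℕ) (π : Equiv.Perm (Fin k)) (j : Fin (s + 1)) : Equiv.Perm (Fin (k + (s + 1))) :=
  finSumFinEquiv.permCongr (Equiv.sumCongr π (Equiv.addRight j))

/-- The lifted instance over the alphabet `Fin (k + (s + 1))`, on the same vertex set: every
constraint `(u, v, π)` is replaced by the `s` constraints `(u, v, ext s π j)`, `j = 1, …, s`. -/
def lift (s : ℕ) (G : UG k V E) : UG (k + (s + 1)) V (E × Fin s) where
  src x := G.src x.1
  tgt x := G.tgt x.1
  perm x := ext s (G.perm x.1) x.2.succ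

theorem ext_old (s : ℕ) (π : Equiv.Perm (Fin k)) (j : Fin (s + 1)) (i : Fin k) :
    ext s π j (Fin.castAdd (s + 1) i) = Fin.castAdd (s + 1) (π i) := by
  simp [ext, Equiv.permCongr_apply]

theorem ext_new (s : ℕ) (π : Equiv.Perm (Fin k)) (j : Fin (s + 1)) (c : Fin (s + 1)) :
    ext s π j (Fin.natAdd k c) = Fin.natAdd k (c + j) := by
  simp [ext, Equiv.permCongr_apply]

theorem label_cases (n : ℕ) (x : Fin (k + n)) :
    (∃ i, x = Fin.castAdd n i) ∨ (∃ c, x = Fin.natAdd k c) := by
  refine Fin.addCases (fun i => Or.inl ⟨i, rfl⟩) (fun c => Or.inr ⟨c, rfl⟩) x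

theorem castAdd_ne_natAdd (n : ℕ) (i : Fin k) (c : Fin n) : Fin.castAdd n i ≠ Fin.natAdd k c := by
  intro h
  have h' := congrArg Fin.val h
  simp only [Fin.val_castAdd, Fin.val_natAdd] at h'
  have := i.isLt
  omega

/-- Old labels are kept, new labels are replaced by the labels of `r`. -/
def merge {n : ℕ} (a' : V → Fin (k + n)) (r : V → Fin k) (v : V) : Fin k :=
  Fin.addCases (motive := fun _ => Fin k) (fun i => i) (fun _ => r v) (a' v)

theorem merge_old {n : ℕ} (a' : V → Fin (k + n)) (r : V → Fin k) (v : V) (i : Fin k)
    (h : a' v = Fin.castAdd n i) : merge a' r v = i := by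
  simp [merge, h]

theorem merge_new {n : ℕ} (a' : V → Fin (k + n)) (r : V → Fin k) (v : V) (c : Fin n)
    (h : a' v = Fin.natAdd k c) : merge a' r v = r v := by
  simp [merge, h]

/-- A constraint between two distinct vertices is satisfied by exactly a fraction `1 / k` of all
labelings. -/
theorem count_eq [Fintype V] (u v : V) (huv : u ≠ v) (π : Equiv.Perm (Fin k)) :
    (univ.filter (fun r : V → Fin k => r v = π (r u))).card * k = Fintype.card (V → Fin k) := by
  have h1 : ((univ.filter (fun r : V → Fin k => r v = π (r u))) ×ˢ (univ : Finset (Fin k))).card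
      = (univ : Finset (V → Fin k)).card := by
    refine Finset.card_nbij' (fun p => Function.update p.1 v p.2)
      (fun r => (Function.update r v (π (r u)), r v)) ?_ ?_ ?_ ?_
    · intro p _
      exact mem_coe.2 (mem_univ _)
    · intro r _
      simp only [coe_product, coe_filter, mem_univ, true_and, coe_univ, Set.mem_prod,
        Set.mem_ofPred_eq, Set.mem_univ, and_true, Function.update_self]
      rw [Function.update_of_ne huv]
    · intro p hp
      have hp' : p.1 v = π (p.1 u) := by
        have := hp
        simp only [coe_product, coe_filter, mem_univ, true_and, coe_univ, Set.mem_prod,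
          Set.mem_ofPred_eq, Set.mem_univ, and_true] at this
        exact this
      ext1
      · simp only [Function.update_idem]
        rw [Function.update_of_ne huv, ← hp', Function.update_eq_self]
      · simp
    · intro r _
      simp
  rw [Finset.card_product, Finset.card_univ, Finset.card_univ, Fintype.card_fin] at h1
  exact h1

theorem card_pos [Fintype V] (hk : 1 ≤ k) : 0 < Fintype.card (V → Fin k) := by
  have : Nonempty (V → Fin k) := ⟨fun _ => ⟨0, hk⟩⟩
  exact Fintype.card_pos

/-- The key inequality for one constraint `(u, v, π)`. -/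
theorem key [Fintype V] (s : ℕ) (hks : k ≤ s) (u v : V) (π : Equiv.Perm (Fin k))
    (a' : V → Fin (k + (s + 1))) :
    Fintype.card (V → Fin k) * (univ.filter (fun j : Fin s => a' v = ext s π j.succ (a' u))).card
      ≤ s * (univ.filter (fun r : V → Fin k => merge a' r v = π (merge a' r u))).card := by
  rcases label_cases (s + 1) (a' u) with ⟨i, hi⟩ | ⟨c, hc⟩
  · rcases label_cases (s + 1) (a' v) with ⟨i', hi'⟩ | ⟨c', hc'⟩
    · have h1 : ∀ j : Fin s, (a' v = ext s π j.succ (a' u)) ↔ i' = π i := by
        intro j
        rw [hi, hi', ext_old]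
        exact (Fin.castAdd_injective k (s + 1)).eq_iff
      have h2 : ∀ r : V → Fin k, (merge a' r v = π (merge a' r u)) ↔ i' = π i := by
        intro r
        rw [merge_old a' r v i' hi', merge_old a' r u i hi]
      simp only [h1, h2]
      by_cases h : i' = π i
      · simp only [h, Finset.filter_true, Finset.card_univ, Fintype.card_fin]
        exact le_of_eq (mul_comm _ _)
      · simp [h]
    · have h1 : ∀ j : Fin s, ¬ (a' v = ext s π j.succ (a' u)) := by
        intro j
        rw [hi, hc', ext_old]
        exact (castAdd_ne_natAdd _ _ _).symm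
      simp [h1]
  · rcases label_cases (s + 1) (a' v) with ⟨i', hi'⟩ | ⟨c', hc'⟩
    · have h1 : ∀ j : Fin s, ¬ (a' v = ext s π j.succ (a' u)) := by
        intro j
        rw [hc, hi', ext_new]
        exact castAdd_ne_natAdd _ _ _
      simp [h1]
    · have h1 : ∀ j : Fin s, (a' v = ext s π j.succ (a' u)) ↔ c' = c + j.succ := by
        intro j
        rw [hc, hc', ext_new]
        exact (Fin.natAdd_injective (s + 1) k).eq_iff
      have h2 : ∀ r : V → Fin k, (merge a' r v = π (merge a' r u)) ↔ r v = π (r u) := by
        intro r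
        rw [merge_new a' r v c' hc', merge_new a' r u c hc]
      simp only [h1, h2]
      by_cases huv : u = v
      · subst huv
        have hcc : c' = c := by
          have := hc.symm.trans hc'
          exact ((Fin.natAdd_injective (s + 1) k) this).symm
        have h3 : ∀ j : Fin s, ¬ (c' = c + j.succ) := by
          intro j h
          rw [hcc] at h
          have h0 := h.symm
          simp at h0
        simp [h3]
      · have hcard : (univ.filter (fun j : Fin s => c' = c + j.succ)).card ≤ 1 := by
          rw [Finset.card_le_one]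
          intro j1 h1' j2 h2'
          have e1 := (Finset.mem_filter.1 h1').2
          have e2 := (Finset.mem_filter.1 h2').2
          have e3 : c + j1.succ = c + j2.succ := e1.symm.trans e2
          exact Fin.succ_injective s (add_left_cancel e3)
        have hcount := count_eq u v huv π
        calc Fintype.card (V → Fin k) * (univ.filter (fun j : Fin s => c' = c + j.succ)).card
            ≤ Fintype.card (V → Fin k) * 1 := Nat.mul_le_mul_left _ hcard
          _ = (univ.filter (fun r : V → Fin k => r v = π (r u))).card * k := by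
              rw [mul_one, hcount]
          _ ≤ (univ.filter (fun r : V → Fin k => r v = π (r u))).card * s :=
              Nat.mul_le_mul_left _ hks
          _ = s * (univ.filter (fun r : V → Fin k => r v = π (r u))).card := mul_comm _ _

theorem numSat_le_maxSat [Fintype V] [Fintype E] (G : UG k V E) (a : V → Fin k) :
    G.numSat a ≤ G.maxSat :=
  Finset.le_sup (f := fun a : V → Fin k => G.numSat a) (mem_univ a)

theorem numSat_lift [Fintype E] (s : ℕ) (G : UG k V E) (a' : V → Fin (k + (s + 1))) :
    (lift s G).numSat a' = ∑ e : E,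
      (univ.filter (fun j : Fin s => a' (G.tgt e) = ext s (G.perm e) j.succ (a' (G.src e)))).card := by
  unfold UG.numSat
  simp only [Finset.card_filter]
  rw [Fintype.sum_prod_type]
  rfl

/-- Double counting: the sum over all labelings of the number of satisfied constraints. -/
theorem sum_numSat [Fintype V] [Fintype E] (G : UG k V E) (f : (V → Fin k) → V → Fin k) :
    ∑ r : V → Fin k, G.numSat (f r) = ∑ e : E,
      (univ.filter (fun r : V → Fin k => f r (G.tgt e) = G.perm e (f r (G.src e)))).card := by
  unfold UG.numSat
  simp only [Finset.card_filter]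
  exact Finset.sum_comm

theorem lift_numSat_le [Fintype V] [Fintype E] (hk : 1 ≤ k) (s : ℕ) (hks : k ≤ s) (G : UG k V E)
    (a' : V → Fin (k + (s + 1))) : (lift s G).numSat a' ≤ s * G.maxSat := by
  have hK := card_pos (V := V) hk
  have h1 : Fintype.card (V → Fin k) * (lift s G).numSat a'
      ≤ Fintype.card (V → Fin k) * (s * G.maxSat) := by
    calc Fintype.card (V → Fin k) * (lift s G).numSat a'
        = ∑ e : E, Fintype.card (V → Fin k) * (univ.filter (fun j : Fin s =>
            a' (G.tgt e) = ext s (G.perm e) j.succ (a' (G.src e)))).card := by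
          rw [numSat_lift, Finset.mul_sum]
      _ ≤ ∑ e : E, s * (univ.filter (fun r : V → Fin k =>
            merge a' r (G.tgt e) = G.perm e (merge a' r (G.src e)))).card :=
          Finset.sum_le_sum (fun e _ => key s hks _ _ _ a')
      _ = s * ∑ r : V → Fin k, G.numSat (merge a' r) := by
          rw [sum_numSat G (merge a'), Finset.mul_sum]
      _ ≤ s * ∑ _r : V → Fin k, G.maxSat :=
          Nat.mul_le_mul_left _ (Finset.sum_le_sum (fun r _ => numSat_le_maxSat G _))
      _ = Fintype.card (V → Fin k) * (s * G.maxSat) := by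
          rw [Finset.sum_const, Finset.card_univ, smul_eq_mul]
          ring
  exact Nat.le_of_mul_le_mul_left h1 hK

theorem lift_numSat_old [Fintype E] (s : ℕ) (G : UG k V E) (a : V → Fin k) :
    (lift s G).numSat (fun v => Fin.castAdd (s + 1) (a v)) = s * G.numSat a := by
  rw [numSat_lift]
  have h1 : ∀ (e : E) (j : Fin s), (Fin.castAdd (s + 1) (a (G.tgt e))
      = ext s (G.perm e) j.succ (Fin.castAdd (s + 1) (a (G.src e))))
      ↔ a (G.tgt e) = G.perm e (a (G.src e)) := by
    intro e j
    rw [ext_old]
    exact (Fin.castAdd_injective k (s + 1)).eq_iff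
  simp only [h1]
  unfold UG.numSat
  rw [Finset.card_filter, Finset.mul_sum]
  refine Finset.sum_congr rfl (fun e _ => ?_)
  by_cases h : a (G.tgt e) = G.perm e (a (G.src e))
  · simp [h]
  · simp [h]

theorem maxSat_lift [Fintype V] [Fintype E] (hk : 1 ≤ k) (s : ℕ) (hks : k ≤ s) (G : UG k V E) :
    (lift s G).maxSat = s * G.maxSat := by
  apply le_antisymm
  · exact Finset.sup_le (fun a' _ => lift_numSat_le hk s hks G a')
  · have hne : (univ : Finset (V → Fin k)).Nonempty := ⟨fun _ => ⟨0, hk⟩, mem_univ _⟩
    obtain ⟨a, _, ha⟩ := Finset.exists_mem_eq_sup univ hne (fun a : V → Fin k => G.numSat a)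
    have : G.maxSat = G.numSat a := ha
    rw [this, ← lift_numSat_old]
    exact numSat_le_maxSat (lift s G) _

theorem val_lift [Fintype V] [Fintype E] (hk : 1 ≤ k) (s : ℕ) (hks : k ≤ s) (G : UG k V E) :
    (lift s G).val = G.val := by
  have hs : (s : ℝ) ≠ 0 := by
    have : 0 < s := lt_of_lt_of_le hk hks
    exact_mod_cast this.ne'
  unfold UG.val
  rw [maxSat_lift hk s hks G, Fintype.card_prod, Fintype.card_fin]
  push_cast
  rw [mul_comm (Fintype.card E : ℝ) (s : ℝ)]
  exact mul_div_mul_left _ _ hs

theorem one_div_le_val [Fintype V] [Fintype E] [Nonempty E] (hk : 1 ≤ k) (G : UG k V E)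
    (hloop : ∀ e, G.src e ≠ G.tgt e) : 1 / (k : ℝ) ≤ G.val := by
  have hK := card_pos (V := V) hk
  have h1 : Fintype.card (V → Fin k) * Fintype.card E
      ≤ Fintype.card (V → Fin k) * (k * G.maxSat) := by
    calc Fintype.card (V → Fin k) * Fintype.card E
        = ∑ e : E, (univ.filter (fun r : V → Fin k =>
            r (G.tgt e) = G.perm e (r (G.src e)))).card * k := by
          rw [Finset.sum_congr rfl (fun e _ => count_eq (G.src e) (G.tgt e) (hloop e) (G.perm e)),
            Finset.sum_const, Finset.card_univ, smul_eq_mul, mul_comm]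
      _ = (∑ r : V → Fin k, G.numSat (id r)) * k := by
          rw [sum_numSat G id, Finset.sum_mul]
          rfl
      _ ≤ (∑ _r : V → Fin k, G.maxSat) * k :=
          Nat.mul_le_mul_right _ (Finset.sum_le_sum (fun r _ => numSat_le_maxSat G _))
      _ = Fintype.card (V → Fin k) * (k * G.maxSat) := by
          rw [Finset.sum_const, Finset.card_univ, smul_eq_mul]
          ring
  have h2 : Fintype.card E ≤ k * G.maxSat := Nat.le_of_mul_le_mul_left h1 hK
  have hE : (0 : ℝ) < Fintype.card E := by exact_mod_cast Fintype.card_pos
  have hk' : (0 : ℝ) < k := by exact_mod_cast hk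
  unfold UG.val
  rw [div_le_div_iff₀ hk' hE, one_mul]
  have h3 : (Fintype.card E : ℝ) ≤ (k : ℝ) * (G.maxSat : ℝ) := by exact_mod_cast h2
  linarith

/-- (1) For `1 ≤ k ≤ s`, the explicit instance `lift s G` over the alphabet of size `k + s + 1`, on
the same vertex set and with `s` copies of every constraint, has exactly the same value as `G`.
(2) Hence for every `k' ≥ 2 k + 1` there is an instance over the alphabet of size `k'` on the same
vertex set, with `(k' - k - 1) |E|` constraints and the same value.
(3) Every instance without loops has value at least `1 / k`. -/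
theorem result :
    (∀ (k s : ℕ) (V E : Type) [Fintype V] [Fintype E] (G : UG k V E), 1 ≤ k → k ≤ s →
      (lift s G).val = G.val) ∧
    (∀ (k k' : ℕ) (V E : Type) [Fintype V] [Fintype E] (G : UG k V E), 1 ≤ k → 2 * k + 1 ≤ k' →
      ∃ (E' : Type) (_ : Fintype E') (G' : UG k' V E'),
        Fintype.card E' = (k' - k - 1) * Fintype.card E ∧ G'.val = G.val) ∧
    (∀ (k : ℕ) (V E : Type) [Fintype V] [Fintype E] [Nonempty E] (G : UG k V E), 1 ≤ k →
      (∀ e, G.src e ≠ G.tgt e) → 1 / (k : ℝ) ≤ G.val) := by
  refine ⟨fun _ s _ _ _ _ G hk hks => val_lift hk s hks G, ?_,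
    fun _ _ _ _ _ _ G hk hloop => one_div_le_val hk G hloop⟩
  intro k k' V E _ _ G hk hk'
  obtain ⟨s, rfl⟩ : ∃ s, k' = k + (s + 1) := ⟨k' - k - 1, by omega⟩
  refine ⟨E × Fin s, inferInstance, lift s G, ?_, val_lift hk s (by omega) G⟩
  rw [Fintype.card_prod, Fintype.card_fin, mul_comm]
  congr 1
  omega

end Vale.Agent.Results.P325.AlphabetLift
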