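import Mathlib

namespace Vale.Agent.Results.P325.AlphabetPadding

open Finset

/-- A Unique Games instance over the alphabet `Fin k`: vertex set `V`, constraints indexed by `E`
(a finite family, so repetitions are allowed); constraint `e` is `(src e, tgt e, perm e)`. -/
structure UG (k : ℕ) (V E : Type) where
  src : E → V
  tgt : E → V
  perm : E → Equiv.Perm (Fin k)

/-- The fraction of constraints satisfied by the labeling `a`
(`a` satisfies `(u, v, π)` when `a v = π (a u)`). -/
noncomputable def UG.frac {k : ℕ} {V E : Type} [Fintype E] (G : UG k V E) (a : V → Fin k) : ℝ :=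
  (∑ e, if a (G.tgt e) = G.perm e (a (G.src e)) then (1 : ℝ) else 0) / Fintype.card E

/-- The value: the largest fraction of constraints satisfied by a single labeling. -/
noncomputable def UG.val {k : ℕ} {V E : Type} [Fintype E] (G : UG k V E) : ℝ :=
  ⨆ a : V → Fin k, G.frac a

/-- Cyclic shift of `c` by `s` modulo `t` (for `c, s < t`). -/
def shift (t c s : ℕ) : ℕ := if c + s < t then c + s else c + s - t

/-- The `j`-th extension of a permutation `p` of `Fin k` to `Fin (k + (r + 1))`: a label `a < k`
goes to `p a`, and a new label `k + c` goes to `k + ((c + j + 1) mod (r + 1))`. -/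
def extFun {k : ℕ} (r : ℕ) (j : Fin r) (p : Equiv.Perm (Fin k)) (a : Fin (k + (r + 1))) :
    Fin (k + (r + 1)) :=
  if h : a.val < k then ⟨(p ⟨a.val, h⟩).val, by have := (p ⟨a.val, h⟩).isLt; omega⟩
  else ⟨k + shift (r + 1) (a.val - k) (j.val + 1), by
    have h1 := a.isLt
    have h2 := j.isLt
    unfold shift
    split_ifs <;> omega⟩

theorem extFun_old {k : ℕ} (r : ℕ) (j : Fin r) (p : Equiv.Perm (Fin k)) (a : Fin (k + (r + 1)))
    (h : a.val < k) : (extFun r j p a).val = (p ⟨a.val, h⟩).val := by
  simp only [extFun, dif_pos h]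

theorem extFun_new {k : ℕ} (r : ℕ) (j : Fin r) (p : Equiv.Perm (Fin k)) (a : Fin (k + (r + 1)))
    (h : ¬ a.val < k) :
    (extFun r j p a).val = k + shift (r + 1) (a.val - k) (j.val + 1) := by
  simp only [extFun, dif_neg h]

theorem extFun_injective {k : ℕ} (r : ℕ) (j : Fin r) (p : Equiv.Perm (Fin k)) :
    Function.Injective (extFun r j p) := by
  intro a b hab
  have hv := congrArg Fin.val hab
  have ha' := a.isLt
  have hb' := b.isLt
  have hj := j.isLt
  by_cases ha : a.val < k
  · by_cases hb : b.val < k
    · rw [extFun_old r j p a ha, extFun_old r j p b hb] at hv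
      have h1 : p ⟨a.val, ha⟩ = p ⟨b.val, hb⟩ := Fin.ext hv
      have h2 := congrArg Fin.val (p.injective h1)
      exact Fin.ext h2
    · rw [extFun_old r j p a ha, extFun_new r j p b hb] at hv
      have := (p ⟨a.val, ha⟩).isLt
      omega
  · by_cases hb : b.val < k
    · rw [extFun_new r j p a ha, extFun_old r j p b hb] at hv
      have := (p ⟨b.val, hb⟩).isLt
      omega
    · rw [extFun_new r j p a ha, extFun_new r j p b hb] at hv
      apply Fin.ext
      unfold shift at hv
      split_ifs at hv <;> omega

/-- `extFun` as a permutation of the larger alphabet. -/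
noncomputable def ext {k : ℕ} (r : ℕ) (j : Fin r) (p : Equiv.Perm (Fin k)) :
    Equiv.Perm (Fin (k + (r + 1))) :=
  Equiv.ofBijective (extFun r j p) (Finite.injective_iff_bijective.1 (extFun_injective r j p))

/-- The padded instance over the alphabet `Fin (k + (r + 1))`, on the same vertex set: every
constraint `(u, v, p)` of `G` is replaced by the `r` constraints `(u, v, ext r j p)`, `j < r`. -/
noncomputable def pad {k : ℕ} (r : ℕ) {V E : Type} (G : UG k V E) :
    UG (k + (r + 1)) V (E × Fin r) where
  src := fun x => G.src x.1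
  tgt := fun x => G.tgt x.1
  perm := fun x => ext r x.2 (G.perm x.1)

variable {k : ℕ} {V E : Type} [Fintype E]

theorem frac_le_one (G : UG k V E) (a : V → Fin k) : G.frac a ≤ 1 := by
  unfold UG.frac
  apply div_le_one_of_le₀ _ (Nat.cast_nonneg _)
  calc (∑ e, if a (G.tgt e) = G.perm e (a (G.src e)) then (1 : ℝ) else 0)
      ≤ ∑ _e : E, (1 : ℝ) := by
        apply Finset.sum_le_sum
        intro e _
        split_ifs <;> norm_num
    _ = Fintype.card E := by simp

theorem bdd (G : UG k V E) : BddAbove (Set.range fun a : V → Fin k => G.frac a) := by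
  refine ⟨1, ?_⟩
  rintro _ ⟨a, rfl⟩
  exact frac_le_one G a

theorem frac_le_val (G : UG k V E) (a : V → Fin k) : G.frac a ≤ G.val :=
  le_ciSup (bdd G) a

/-- Counting lemma: for `u ≠ v` exactly a fraction `1 / k` of all labelings satisfies a given
constraint. -/
theorem count [Fintype V] [DecidableEq V] (u v : V) (huv : u ≠ v) (p : Equiv.Perm (Fin k)) :
    (k : ℝ) * ∑ ρ : V → Fin k, (if ρ v = p (ρ u) then (1 : ℝ) else 0)
      = Fintype.card (V → Fin k) := by
  let e := Equiv.funSplitAt v (Fin k)
  have h1 : ∑ ρ : V → Fin k, (if ρ v = p (ρ u) then (1 : ℝ) else 0)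
      = ∑ x : Fin k × ({j // j ≠ v} → Fin k),
          (if x.1 = p (x.2 ⟨u, huv⟩) then (1 : ℝ) else 0) := by
    apply Fintype.sum_equiv e
    intro ρ
    rfl
  rw [h1, Fintype.sum_prod_type_right]
  simp only [Finset.sum_ite_eq', Finset.mem_univ, if_true, Finset.sum_const, Finset.card_univ,
    nsmul_eq_mul, mul_one]
  rw [Fintype.card_congr e, Fintype.card_prod, Fintype.card_fin]
  push_cast
  ring

theorem ext_apply (r : ℕ) (j : Fin r) (p : Equiv.Perm (Fin k)) (a : Fin (k + (r + 1))) :
    ext r j p a = extFun r j p a := rfl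

/-- The labeling of `G` read off from a labeling `a'` of the padded instance; vertices carrying a
new label get their label from `ρ`. -/
def pull {r : ℕ} (a' : V → Fin (k + (r + 1))) (ρ : V → Fin k) : V → Fin k :=
  fun x => if h : (a' x).val < k then ⟨(a' x).val, h⟩ else ρ x

theorem key [Fintype V] [DecidableEq V] {r : ℕ} (hkr : k ≤ r) (p : Equiv.Perm (Fin k))
    (u v : V) (a' : V → Fin (k + (r + 1))) :
    (Fintype.card (V → Fin k) : ℝ) *
        ∑ j : Fin r, (if a' v = ext r j p (a' u) then (1 : ℝ) else 0)
      ≤ r * ∑ ρ : V → Fin k, (if pull a' ρ v = p (pull a' ρ u) then (1 : ℝ) else 0) := by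
  have hrhs : 0 ≤ (r : ℝ) *
      ∑ ρ : V → Fin k, (if pull a' ρ v = p (pull a' ρ u) then (1 : ℝ) else 0) := by
    apply mul_nonneg (Nat.cast_nonneg r)
    apply Finset.sum_nonneg
    intro ρ _
    split_ifs <;> norm_num
  have hu' := (a' u).isLt
  have hv' := (a' v).isLt
  by_cases hu : (a' u).val < k
  · by_cases hv : (a' v).val < k
    · have hiff : ∀ j : Fin r, (a' v = ext r j p (a' u)) ↔
          ((⟨(a' v).val, hv⟩ : Fin k) = p ⟨(a' u).val, hu⟩) := by
        intro j
        rw [ext_apply, Fin.ext_iff, extFun_old r j p _ hu, Fin.ext_iff]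
      simp only [hiff, pull, dif_pos hu, dif_pos hv]
      simp only [Finset.sum_const, Finset.card_univ, Fintype.card_fin, nsmul_eq_mul]
      apply le_of_eq
      ring
    · have hno : ∀ j : Fin r, ¬ (a' v = ext r j p (a' u)) := by
        intro j h
        have hval := congrArg Fin.val h
        rw [ext_apply, extFun_old r j p _ hu] at hval
        have := (p ⟨(a' u).val, hu⟩).isLt
        omega
      simp only [hno, if_false, Finset.sum_const_zero, mul_zero]
      exact hrhs
  · by_cases hv : (a' v).val < k
    · have hno : ∀ j : Fin r, ¬ (a' v = ext r j p (a' u)) := by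
        intro j h
        have hval := congrArg Fin.val h
        rw [ext_apply, extFun_new r j p _ hu] at hval
        omega
      simp only [hno, if_false, Finset.sum_const_zero, mul_zero]
      exact hrhs
    · by_cases huv : u = v
      · have hno : ∀ j : Fin r, ¬ (a' v = ext r j p (a' u)) := by
          intro j h
          have hval := congrArg Fin.val h
          rw [ext_apply, extFun_new r j p _ hu, huv] at hval
          have hj := j.isLt
          unfold shift at hval
          split_ifs at hval <;> omega
        simp only [hno, if_false, Finset.sum_const_zero, mul_zero]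
        exact hrhs
      · have hL : ∑ j : Fin r, (if a' v = ext r j p (a' u) then (1 : ℝ) else 0) ≤ 1 := by
          rw [← Finset.sum_filter, Finset.sum_const, nsmul_eq_mul, mul_one]
          have hcard : (univ.filter (fun j : Fin r => a' v = ext r j p (a' u))).card ≤ 1 := by
            rw [Finset.card_le_one]
            intro j1 hj1 j2 hj2
            have h1 := congrArg Fin.val (Finset.mem_filter.1 hj1).2
            have h2 := congrArg Fin.val (Finset.mem_filter.1 hj2).2
            rw [ext_apply, extFun_new r j1 p _ hu] at h1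
            rw [ext_apply, extFun_new r j2 p _ hu] at h2
            have hj1' := j1.isLt
            have hj2' := j2.isLt
            apply Fin.ext
            unfold shift at h1 h2
            split_ifs at h1 h2 <;> omega
          exact_mod_cast hcard
        have hR : ∑ ρ : V → Fin k, (if pull a' ρ v = p (pull a' ρ u) then (1 : ℝ) else 0)
            = ∑ ρ : V → Fin k, (if ρ v = p (ρ u) then (1 : ℝ) else 0) := by
          simp only [pull, dif_neg hu, dif_neg hv]
        rw [hR]
        have hc := count u v huv p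
        have hS : 0 ≤ ∑ ρ : V → Fin k, (if ρ v = p (ρ u) then (1 : ℝ) else 0) := by
          apply Finset.sum_nonneg
          intro ρ _
          split_ifs <;> norm_num
        have hkr' : (k : ℝ) ≤ r := by exact_mod_cast hkr
        have hcard0 : (0 : ℝ) ≤ Fintype.card (V → Fin k) := Nat.cast_nonneg _
        calc (Fintype.card (V → Fin k) : ℝ) *
              ∑ j : Fin r, (if a' v = ext r j p (a' u) then (1 : ℝ) else 0)
            ≤ (Fintype.card (V → Fin k) : ℝ) * 1 := mul_le_mul_of_nonneg_left hL hcard0
          _ = (k : ℝ) * ∑ ρ : V → Fin k, (if ρ v = p (ρ u) then (1 : ℝ) else 0) := by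
              rw [hc, mul_one]
          _ ≤ r * ∑ ρ : V → Fin k, (if ρ v = p (ρ u) then (1 : ℝ) else 0) :=
              mul_le_mul_of_nonneg_right hkr' hS

theorem pad_frac_le [Fintype V] [DecidableEq V] [Nonempty E] {r : ℕ} (hk : 0 < k) (hkr : k ≤ r)
    (G : UG k V E) (a' : V → Fin (k + (r + 1))) : (pad r G).frac a' ≤ G.val := by
  have hr : (0 : ℝ) < r := by exact_mod_cast lt_of_lt_of_le hk hkr
  have hn : (0 : ℝ) < Fintype.card E := by exact_mod_cast Fintype.card_pos
  have : Nonempty (V → Fin k) := ⟨fun _ => ⟨0, hk⟩⟩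
  have hΩ : (0 : ℝ) < Fintype.card (V → Fin k) := by exact_mod_cast Fintype.card_pos
  have hsum : (Fintype.card (V → Fin k) : ℝ) *
      ∑ e, ∑ j : Fin r, (if a' (G.tgt e) = ext r j (G.perm e) (a' (G.src e)) then (1 : ℝ) else 0)
      ≤ r * (Fintype.card (V → Fin k) * (G.val * Fintype.card E)) := by
    calc (Fintype.card (V → Fin k) : ℝ) *
      ∑ e, ∑ j : Fin r, (if a' (G.tgt e) = ext r j (G.perm e) (a' (G.src e)) then (1 : ℝ) else 0)
        = ∑ e, (Fintype.card (V → Fin k) : ℝ) *
          ∑ j : Fin r, (if a' (G.tgt e) = ext r j (G.perm e) (a' (G.src e))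
            then (1 : ℝ) else 0) := by rw [Finset.mul_sum]
      _ ≤ ∑ e, r * ∑ ρ : V → Fin k, (if pull a' ρ (G.tgt e) = G.perm e (pull a' ρ (G.src e))
            then (1 : ℝ) else 0) :=
          Finset.sum_le_sum (fun e _ => key hkr (G.perm e) (G.src e) (G.tgt e) a')
      _ = r * ∑ ρ : V → Fin k, ∑ e, (if pull a' ρ (G.tgt e) = G.perm e (pull a' ρ (G.src e))
            then (1 : ℝ) else 0) := by rw [← Finset.mul_sum, Finset.sum_comm]
      _ ≤ r * ∑ _ρ : V → Fin k, (G.val * Fintype.card E) := by
          apply mul_le_mul_of_nonneg_left _ hr.le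
          apply Finset.sum_le_sum
          intro ρ _
          have h1 := frac_le_val G (pull a' ρ)
          unfold UG.frac at h1
          rwa [div_le_iff₀ hn] at h1
      _ = r * (Fintype.card (V → Fin k) * (G.val * Fintype.card E)) := by
          rw [Finset.sum_const, Finset.card_univ, nsmul_eq_mul]
  have hsum' : ∑ e, ∑ j : Fin r,
      (if a' (G.tgt e) = ext r j (G.perm e) (a' (G.src e)) then (1 : ℝ) else 0)
      ≤ G.val * (Fintype.card E * r) := by
    have h2 : (Fintype.card (V → Fin k) : ℝ) * ∑ e, ∑ j : Fin r,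
      (if a' (G.tgt e) = ext r j (G.perm e) (a' (G.src e)) then (1 : ℝ) else 0)
      ≤ (Fintype.card (V → Fin k) : ℝ) * (G.val * (Fintype.card E * r)) := by
      calc _ ≤ r * (Fintype.card (V → Fin k) * (G.val * Fintype.card E)) := hsum
        _ = _ := by ring
    exact le_of_mul_le_mul_left h2 hΩ
  unfold UG.frac
  rw [Fintype.sum_prod_type, Fintype.card_prod, Fintype.card_fin]
  push_cast
  rw [div_le_iff₀ (mul_pos hn hr)]
  exact hsum'

theorem le_pad_val [Nonempty E] {r : ℕ} (hr : 0 < r) (G : UG k V E) (a : V → Fin k) :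
    G.frac a ≤ (pad r G).val := by
  have hr' : (r : ℝ) ≠ 0 := by exact_mod_cast hr.ne'
  have hn : (Fintype.card E : ℝ) ≠ 0 := by exact_mod_cast Fintype.card_ne_zero
  refine le_trans (le_of_eq ?_) (frac_le_val (pad r G)
    (fun x => ⟨(a x).val, by have := (a x).isLt; omega⟩))
  unfold UG.frac
  rw [Fintype.sum_prod_type, Fintype.card_prod, Fintype.card_fin]
  have hiff : ∀ (e : E) (j : Fin r),
      ((⟨(a (G.tgt e)).val, by have := (a (G.tgt e)).isLt; omega⟩ : Fin (k + (r + 1))) =
        ext r j (G.perm e) ⟨(a (G.src e)).val, by have := (a (G.src e)).isLt; omega⟩) ↔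
      a (G.tgt e) = G.perm e (a (G.src e)) := by
    intro e j
    rw [ext_apply, Fin.ext_iff, extFun_old r j _ _ (a (G.src e)).isLt, Fin.ext_iff]
  have hsum : ∑ e, ∑ j : Fin r, (if
      ((⟨(a (G.tgt e)).val, by have := (a (G.tgt e)).isLt; omega⟩ : Fin (k + (r + 1))) =
        ext r j (G.perm e) ⟨(a (G.src e)).val, by have := (a (G.src e)).isLt; omega⟩)
      then (1 : ℝ) else 0)
      = r * ∑ e, (if a (G.tgt e) = G.perm e (a (G.src e)) then (1 : ℝ) else 0) := by
    simp only [hiff, Finset.sum_const, Finset.card_univ, Fintype.card_fin, nsmul_eq_mul]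
    rw [Finset.mul_sum]
  have hgoal : ∑ x : E, ∑ y : Fin r, (if
      (fun x => (⟨(a x).val, by have := (a x).isLt; omega⟩ : Fin (k + (r + 1))))
        ((pad r G).tgt (x, y)) = (pad r G).perm (x, y)
        ((fun x => (⟨(a x).val, by have := (a x).isLt; omega⟩ : Fin (k + (r + 1))))
          ((pad r G).src (x, y))) then (1 : ℝ) else 0)
      = r * ∑ e, (if a (G.tgt e) = G.perm e (a (G.src e)) then (1 : ℝ) else 0) := hsum
  rw [hgoal]
  push_cast
  field_simp

theorem pad_val [Fintype V] [DecidableEq V] [Nonempty E] {r : ℕ} (hk : 0 < k) (hkr : k ≤ r)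
    (G : UG k V E) : (pad r G).val = G.val := by
  have : Nonempty (V → Fin k) := ⟨fun _ => ⟨0, hk⟩⟩
  have : Nonempty (V → Fin (k + (r + 1))) := ⟨fun _ => ⟨0, by omega⟩⟩
  apply le_antisymm
  · exact ciSup_le (fun a' => pad_frac_le hk hkr G a')
  · exact ciSup_le (fun a => le_pad_val (lt_of_lt_of_le hk hkr) G a)

/-- For all `2 ≤ k ≤ r`, the explicit transformation `pad` turns a Unique Games instance `G` over
the alphabet `Fin k` into an instance over the alphabet `Fin (k + r + 1)` on the same vertex set,
with `r` times as many constraints, and with exactly the same value. -/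
theorem result :
    ∀ (k r : ℕ), 2 ≤ k → k ≤ r → ∀ (V E : Type) [Fintype V] [Fintype E] [Nonempty E]
      (G : UG k V E), (pad r G).val = G.val := by
  intro k r hk hkr V E _ _ _ G
  classical
  exact pad_val (by omega) hkr G

end Vale.Agent.Results.P325.AlphabetPadding
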